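import Vale.Agent.P263.FR.H850.Sm
import Vale.Agent.P263.FR.H663.QFc
import Vale.Agent.P263.FR.Dual0
import Vale.Agent.P263.K.Kun2
import Vale.Agent.P263.TJ.MuInj

/-!
# P263, V5, block C: the intersection form is nonsingular

* `nondeg` : let `c : S^m → (ℝᴷ × M)⁺` be a based map with a duality map `T : (ℝᴷ × M × M)⁺ → S^m`
  (`Θ = (T, pr_1)`, `Θ ∘ (c ∧ 1)` homotopic to `(z, p) ↦ (z, p)`), and let the class of `T` be of
  finite type. If `u` is a cocycle with `Int c (a ∪ u) = 0` for all cocycles `a` of complementary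
  degree, then `u` is a coboundary.
-/

open Finset OnePoint Topology

namespace Vale.Agent.P263.FR

open Vale.Agent.P263.S hiding sn sn_add
open Vale.Agent.P263.E Vale.Agent.P263.H83 Vale.Agent.P263.G2 Vale.Agent.P263.TJ
open Vale.Agent.P263.T0 CupC

set_option linter.unusedSectionVars false

/-! ### calculus -/

section calculus

variable {X : SS}

theorem coh_comm {A B : Cc X} (hA : Cc.d A = 0) (hB : Cc.d B = 0) :
    (Cc.cupC X).Coh (Cc.cup 1 A B) (Cc.cup 1 B A) := by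
  refine ⟨Cc.cup 2 A B, ?_⟩
  show Cc.cup 1 A B + Cc.cup 1 B A = Cc.d (Cc.cup 2 A B)
  rw [TJ.d_cup, hA, hB, cup_zero_left, cup_zero_right]
  funext p x
  simp only [Pi.add_apply, Pi.zero_apply]
  ring

theorem coh_sum {ι : Type} (s : Finset ι) {x y : ι → Cc X}
    (h : ∀ k, (Cc.cupC X).Coh (x k) (y k)) : (Cc.cupC X).Coh (∑ k ∈ s, x k : Cc X)
      (∑ k ∈ s, y k : Cc X) := by
  classical
  induction s using Finset.induction_on with
  | empty => exact CupC.Coh.refl _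
  | insert a s ha ih =>
    rw [sum_insert ha, sum_insert ha]
    exact coh_add (h a) ih

/-- left multiplication -/
noncomputable def cupL (A : Cc X) : Cc X →+ Cc X where
  toFun v := Cc.cup 1 A v
  map_zero' := cup_zero_right _ _
  map_add' v w := by
    show Cc.cup 1 A (v + w) = Cc.cup 1 A v + Cc.cup 1 A w
    rw [cup_add_right]

theorem cup_sum_right {ι : Type} (s : Finset ι) (A : Cc X) (x : ι → Cc X) :
    Cc.cup 1 A (∑ k ∈ s, x k) = ∑ k ∈ s, Cc.cup 1 A (x k) := map_sum (cupL A) x s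

/-- integration as a homomorphism -/
noncomputable def dstH (n : ℕ) : Cc (X.prod (SN n)) →+ Cc X where
  toFun := DstN n
  map_zero' := DstN_zero n
  map_add' := DstN_add n

theorem DstN_fsum {ι : Type} (n : ℕ) (s : Finset ι) (x : ι → Cc (X.prod (SN n))) :
    DstN n (∑ k ∈ s, x k) = ∑ k ∈ s, DstN n (x k) := map_sum (dstH n) x s

theorem coh_of_add {x y a : Cc X} (h : x + y = Cc.d a) : (Cc.cupC X).Coh x y := ⟨a, h⟩

theorem coh_sum_zero {x y : Cc X} (h : (Cc.cupC X).Coh x y) : (Cc.cupC X).Coh (x + y : Cc X) 0 := by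
  obtain ⟨a, ha⟩ := h
  exact ⟨a, by show x + y + 0 = Cc.d a; rw [add_zero]; exact ha⟩

end calculus

section main

variable {M : Type} [TopologicalSpace M] [CompactSpace M] [T2Space M] {ι : Type} [Fintype ι]
  {β α : ι → Cc (sing M)}

/-- the first projection on cochains -/
noncomputable abbrev pr1 : SS.Map (sing (M × M)) (sing M) := singMap ContinuousMap.fst

/-- the second projection on cochains -/
noncomputable abbrev pr2 : SS.Map (sing (M × M)) (sing M) := singMap ContinuousMap.snd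

/-- the product of the class `u` with the diagonal class -/
theorem cls {u : Cc (sing M)} (hu : Cc.d u = 0) (hβ : ∀ k, Cc.d (β k) = 0)
    (hα : ∀ k, Cc.d (α k) = 0) {t s₀ : Cc (sing (M × M))}
    (hK : t + ∑ k, Cc.cup 1 (Cc.pull pr2 (β k)) (Cc.pull pr1 (α k)) = Cc.d s₀) :
    (Cc.cupC (sing (M × M))).Coh (Cc.cup 1 (Cc.pull pr1 u) t)
      (∑ k, Cc.cup 1 (Cc.pull pr2 (β k)) (Cc.pull pr1 (Cc.cup 1 (α k) u)) :
        Cc (sing (M × M))) := by
  have hu' : Cc.d (Cc.pull (pr1 (M := M)) u) = 0 := by rw [← pull_d, hu, pull_zero]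
  have hβ' : ∀ k, Cc.d (Cc.pull (pr2 (M := M)) (β k)) = 0 := fun k => by
    rw [← pull_d, hβ, pull_zero]
  have hα' : ∀ k, Cc.d (Cc.pull (pr1 (M := M)) (α k)) = 0 := fun k => by
    rw [← pull_d, hα, pull_zero]
  have ht : t = (∑ k, Cc.cup 1 (Cc.pull pr2 (β k)) (Cc.pull pr1 (α k))) + Cc.d s₀ := by
    rw [← hK, add_left_comm, cc_add_self, add_zero]
  have h1 : Cc.cup 1 (Cc.pull pr1 u) t =
      (∑ k, Cc.cup 1 (Cc.pull pr1 u) (Cc.cup 1 (Cc.pull pr2 (β k)) (Cc.pull pr1 (α k)))) +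
        Cc.d (Cc.cup 1 (Cc.pull pr1 u) s₀) := by
    rw [ht, cup_add_right, d_cup_one, hu', cup_zero_left, zero_add]
    rw [cup_sum_right]
  have h2 : (Cc.cupC (sing (M × M))).Coh (Cc.cup 1 (Cc.pull pr1 u) t)
      (∑ k, Cc.cup 1 (Cc.pull pr1 u) (Cc.cup 1 (Cc.pull pr2 (β k)) (Cc.pull pr1 (α k))) :
        Cc (sing (M × M))) := by
    refine coh_of_add (a := Cc.cup 1 (Cc.pull pr1 u) s₀) ?_
    rw [h1, add_right_comm, cc_add_self, zero_add]
  refine h2.trans (coh_sum _ fun k => ?_)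
  have h3 := coh_comm hu' (B := Cc.cup 1 (Cc.pull pr2 (β k)) (Cc.pull pr1 (α k)))
    (by rw [d_cup_one, hβ', hα', cup_zero_left, cup_zero_right, add_zero])
  rw [TJ.cup_assoc (Cc.pull pr2 (β k)), ← pull_cup] at h3
  exact h3

/-- the class of `v` on the sphere is null if its integral is zero -/
theorem pull_c_null {d i q : ℕ} (hd : 0 < d) {c : C(Sph (d + (i + 1)), TT (i + 1) M)}
    (hc : c ∞ = ∞) {v : Cc (sing M)} (hq : Cc.IsDeg q v) (hv : Cc.d v = 0)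
    (h : q = d → Int c hq hv = 0) :
    ∃ w : Cc (sing (Sph (d + (i + 1)))), Cc.pull (singMap c) (jR i hq hv).b = Cc.d w := by
  have hdeg : Cc.IsDeg (q + (i + 1)) (Cc.pull (singMap c) (jR i hq hv).b) :=
    (jR_deg_b hq hv).pull _
  have hdd : Cc.d (Cc.pull (singMap c) (jR i hq hv).b) = 0 := by
    rw [← pull_d, (jR i hq hv).d_b, pull_zero]
  by_cases hqd : q = d
  · subst hqd
    have hvn : Vn (bs (q + (i + 1))) (Cc.pull (singMap c) (jR i hq hv).b) := by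
      intro p σ hσ
      refine (jR i hq hv).vn_b p _ fun t => ?_
      show c (toC σ t) = ∞
      rw [hσ t, hc]
    have hI := h rfl
    have hvb := ((jR i hq hv).vn_b.pull (cu c)).mono fun x hx => cu_base hc x hx
    have hy : Cc.IsDeg q (DstN (i + 1) (Cc.pull (cu c) (jR i hq hv).b)) :=
      isDeg_DstN ((jR_deg_b hq hv).pull _)
    have hdy : Cc.d (DstN (i + 1) (Cc.pull (cu c) (jR i hq hv).b)) = 0 := by
      rw [← DstN_d hvb, ← pull_d, (jR i hq hv).d_b, pull_zero, DstN_zero]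
    unfold Int at hI
    rw [evc_fcyc] at hI
    obtain ⟨a, ha⟩ := TJ.exists_of_coh ((SphCc.coh_iff hd hy hdy).2 hI)
    obtain ⟨w, hw⟩ := mu_inj hd (z := Cc.mkRel (bs (q + (i + 1))) _ hvn) hdeg
      (Cc.rel_ext hdd) ⟨a, ha⟩
    refine ⟨Cc.val w, ?_⟩
    have h1 := congrArg Cc.val hw
    rw [Cc.val_add, Cc.val_zero, add_zero] at h1
    exact h1
  · exact TJ.exists_of_coh (SphCc.van (by omega) (by omega) _ hdeg hdd)

/-- homotopic maps on cochains -/
theorem pull_htpc {A B : Type} [TopologicalSpace A] [TopologicalSpace B] {f g : C(A, B)}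
    (h : f.Homotopic g) {w : Cc (sing B)} (hw : Cc.d w = 0) :
    ∃ a : Cc (sing A), Cc.pull (singMap f) w + Cc.pull (singMap g) w = Cc.d a := by
  obtain ⟨F⟩ := h
  have h0 := htpS_e0 (SS.Map.id (sing A)) F.toContinuousMap (f := f) fun a => F.apply_zero a
  have h1 := htpS_e1 (SS.Map.id (sing A)) F.toContinuousMap (f := g) fun a => F.apply_one a
  have h2 := htp_coh (htpS (SS.Map.id (sing A)) F.toContinuousMap) hw
  rw [← h0, ← h1] at h2
  have h3 : Cc.pull (singMap f) w = Cc.pull (singMap g) w +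
    Cc.d (htp (htpS (SS.Map.id (sing A)) F.toContinuousMap) w) := h2
  refine ⟨htp (htpS (SS.Map.id (sing A)) F.toContinuousMap) w, ?_⟩
  rw [h3, add_right_comm, cc_add_self, zero_add]

variable {d i q : ℕ} {c : C(Sph (d + (i + 1)), TT (i + 1) M)}
  {T : C(TT (i + 1) (M × M), Sph (d + (i + 1)))}
  {Θ : C(TT (i + 1) (M × M), TT (d + (i + 1)) M)}
  {c₁ : C(Sph (d + (i + 1)) × M, TT (i + 1) (M × M))}

/-- the relative class of the duality map -/
theorem exists_rel (hT : T ∞ = ∞) (hΘ0 : Θ ∞ = ∞)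
    (hΘ : ∀ z x, Θ (smP (i + 1) (M × M) (z, x)) =
      smP (d + (i + 1)) M (T (smP (i + 1) (M × M) (z, x)), x.1))
    {u : Cc (sing M)} (hu : Cc.d u = 0) {b : Cc (sing (TT (d + (i + 1)) M))}
    (hb : IsB (d + (i + 1)) u b) (hβ : ∀ k, Cc.d (β k) = 0)
    (hα : ∀ k, Cc.d (α k) = 0) {s₀ : Cc (sing (M × M))}
    (hK : DstN (i + 1) (Cc.pull ((singMap T).comp (muT (i + 1) (M × M))) (uhat (d + (i + 1)))) +
      ∑ k, Cc.cup 1 (Cc.pull pr2 (β k)) (Cc.pull pr1 (α k)) = Cc.d s₀)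
    {B : ι → Cc (sing (TT (i + 1) (M × M)))}
    (hB : ∀ k, IsB (i + 1) (Cc.cup 1 (Cc.pull pr2 (β k)) (Cc.pull pr1 (Cc.cup 1 (α k) u))) (B k))
    (hB' : ∀ k, (Cc.cupC (sing (M × M))).Coh (DstN (i + 1) (Cc.pull (muT (i + 1) (M × M)) (B k)))
      (Cc.cup 1 (Cc.pull pr2 (β k)) (Cc.pull pr1 (Cc.cup 1 (α k) u)))) :
    ∃ β' : Cc (sing (TT (i + 1) (M × M))),
      Cc.pull (singMap Θ) b + ∑ k, B k = Cc.d β' := by
  have h1 := DstN_graph (Nat.succ_pos _) hu hb hT (g := ContinuousMap.fst) hΘ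
  have h2 := h1.trans (cls hu hβ hα hK)
  have h3 : (Cc.cupC (sing (M × M))).Coh
      (DstN (i + 1) (Cc.pull (muT (i + 1) (M × M)) (Cc.pull (singMap Θ) b + ∑ k, B k))) 0 := by
    rw [pull_add, pull_sum, DstN_add, DstN_fsum]
    exact coh_sum_zero (h2.trans (coh_sum _ hB').symm)
  have hvB : ∀ k, Vn (bsT (i + 1) (M × M)) (B k) := fun k =>
    (hB k).vn.mono fun σ h => mis_of_bsT σ h
  have hv : Vn (bsT (i + 1) (M × M)) (Cc.pull (singMap Θ) b + ∑ k, B k) := by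
    refine Vn.add (fun p σ hσ => hb.vn p _ fun t => ?_) (Vn.sum fun k _ => hvB k)
    show Θ (toC σ t) ∈ misT _ _
    rw [hσ t, hΘ0]
    exact fun p => OnePoint.infty_ne_coe _
  obtain ⟨β', -, h4⟩ := relT_null hv (by
    rw [TJ.d_add, d_sum, sum_eq_zero fun k _ => (hB k).d_b, ← pull_d, hb.d_b, pull_zero,
      add_zero]) h3
  exact ⟨β', h4⟩

/-- **The intersection form is nonsingular.** -/
theorem nondeg (hd : 0 < d) (hc : c ∞ = ∞) (hT : T ∞ = ∞) (hΘ0 : Θ ∞ = ∞)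
    (hΘ : ∀ z x, Θ (smP (i + 1) (M × M) (z, x)) =
      smP (d + (i + 1)) M (T (smP (i + 1) (M × M) (z, x)), x.1))
    (hc₁ : ∀ z p, c₁ (z, p) = smT (c z, p))
    (hH : (Θ.comp c₁).Homotopic (smP (d + (i + 1)) M))
    {r p : ι → ℕ} (hβr : ∀ k, Cc.IsDeg (r k) (β k)) (hβ : ∀ k, Cc.d (β k) = 0)
    (hαp : ∀ k, Cc.IsDeg (p k) (α k)) (hα : ∀ k, Cc.d (α k) = 0) {s₀ : Cc (sing (M × M))}
    (hK : DstN (i + 1) (Cc.pull ((singMap T).comp (muT (i + 1) (M × M))) (uhat (d + (i + 1)))) +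
      ∑ k, Cc.cup 1 (Cc.pull pr2 (β k)) (Cc.pull pr1 (α k)) = Cc.d s₀)
    {u : Cc (sing M)} (hq : Cc.IsDeg q u) (hu : Cc.d u = 0)
    (hI : ∀ (a : Cc (sing M)) (p : ℕ), Cc.IsDeg p a → Cc.d a = 0 → p + q = d →
      ∀ (h1 : Cc.IsDeg d (Cc.cup 1 a u)) (h2 : Cc.d (Cc.cup 1 a u) = 0), Int c h1 h2 = 0) :
    ∃ a : Cc (sing M), u = Cc.d a := by
  have hm : 0 < d + (i + 1) := Nat.succ_pos _
  -- the cocycles
  have hau : ∀ k, Cc.d (Cc.cup 1 (α k) u) = 0 := fun k => by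
    rw [d_cup_one, hα, hu, cup_zero_left, cup_zero_right, add_zero]
  have haq : ∀ k, Cc.IsDeg (p k + q) (Cc.cup 1 (α k) u) := fun k => (hαp k).cup hq rfl
  have hYd : ∀ k, Cc.d (Cc.cup 1 (Cc.pull (pr2 (M := M)) (β k))
      (Cc.pull pr1 (Cc.cup 1 (α k) u))) = 0 := fun k => by
    rw [d_cup_one, ← pull_d, ← pull_d, hβ, hau, pull_zero, pull_zero, cup_zero_left,
      cup_zero_right, add_zero]
  have hYq : ∀ k, Cc.IsDeg (r k + (p k + q)) (Cc.cup 1 (Cc.pull (pr2 (M := M)) (β k))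
      (Cc.pull pr1 (Cc.cup 1 (α k) u))) := fun k =>
    ((hβr k).pull _).cup ((haq k).pull _) rfl
  obtain ⟨b, hb⟩ : ∃ b : Cc (sing (TT (d + (i + 1)) M)), IsB (d + (i + 1)) u b :=
    ⟨_, isB_jR (i := d + i) hq hu⟩
  obtain ⟨β', h1⟩ := exists_rel hT hΘ0 hΘ hu hb hβ hα hK
    (B := fun k => (jR i (hYq k) (hYd k)).b) (fun k => isB_jR (hYq k) (hYd k))
    (fun k => DstN_jR (hYq k) (hYd k))
  -- the products on the sphere times `M`
  have h2 : ∀ k, ∃ w, Cc.pull (singMap c₁) (jR i (hYq k) (hYd k)).b = Cc.d w := by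
    intro k
    obtain ⟨η, -, -, h3⟩ := wedge_b (W := Sph (d + (i + 1)) × M) (P := M) (Q := M) (hβ k)
      (isB_jR (i := i) (haq k) (hau k)) (isB_jR (i := i) (hYq k) (hYd k))
      (c := c.comp ContinuousMap.fst) (r := ContinuousMap.snd) (φ := c₁)
      (fun w hw => by
        have h4 : c w.1 = ∞ := hw
        rw [hc₁ w.1 w.2, h4, smT_infty])
      (fun w v z hw => by
        have h4 : c w.1 = (((v, z) : (Fin (i + 1) → ℝ) × M) : TT (i + 1) M) := hw
        rw [hc₁ w.1 w.2, h4, smT_coe]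
        rfl)
    obtain ⟨w, hw⟩ := pull_c_null hd hc (haq k) (hau k) fun h => by
      subst h
      exact hI (α k) (p k) (hαp k) (hα k) rfl (haq k) (hau k)
    refine ⟨Cc.cup 1 (Cc.pull (singMap ContinuousMap.snd) (β k))
      (Cc.pull (singMap ContinuousMap.fst) w) + η, ?_⟩
    have h5 : Cc.pull (singMap (c.comp (ContinuousMap.fst (α := Sph (d + (i + 1))) (β := M))))
        (jR i (haq k) (hau k)).b = Cc.d (Cc.pull (singMap ContinuousMap.fst) w) := by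
      rw [← pull_d, ← hw]
      rfl
    have h6 : Cc.d (Cc.pull (singMap (ContinuousMap.snd (α := Sph (d + (i + 1))) (β := M)))
        (β k)) = 0 := by rw [← pull_d, hβ, pull_zero]
    rw [h3, h5, TJ.d_add, d_cup_one, h6, cup_zero_left, zero_add]
  choose w hw using h2
  -- the class of `Θ ∘ c₁`
  have h3 : Cc.pull (singMap (Θ.comp c₁)) b =
      Cc.d (Cc.pull (singMap c₁) β' + ∑ k, w k) := by
    have h4 : Cc.pull (singMap (Θ.comp c₁)) b =
        Cc.pull (singMap c₁) (Cc.pull (singMap Θ) b) := rfl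
    have h5 := congrArg (Cc.pull (singMap c₁)) h1
    rw [pull_add, pull_sum, sum_congr rfl fun k _ => hw k, pull_d, ← d_sum] at h5
    rw [h4, TJ.d_add, ← h5, add_assoc, cc_add_self, add_zero]
  obtain ⟨a, ha⟩ := pull_htpc hH hb.d_b
  obtain ⟨η, -, -, h6⟩ := graph_b hm hu hb (W := Sph (d + (i + 1)) × M)
    (h := ContinuousMap.fst) (r := ContinuousMap.snd) (φ := smP (d + (i + 1)) M) fun w => rfl
  -- the product of `u` with the generator
  obtain ⟨v, hv⟩ : ∃ v, Cc.cup 1 (Cc.pull (singMap (ContinuousMap.snd (α := Sph (d + (i + 1)))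
      (β := M))) u) (Cc.pull (singMap ContinuousMap.fst) (uhat (d + (i + 1)))) = Cc.d v := by
    rw [h3, h6] at ha
    refine ⟨(Cc.pull (singMap c₁) β' + ∑ k, w k) + η + a, ?_⟩
    rw [TJ.d_add _ a, ← ha, TJ.d_add _ η]
    obtain ⟨X, hX⟩ : ∃ X, X = Cc.d (Cc.pull (singMap c₁) β' + ∑ k, w k) := ⟨_, rfl⟩
    obtain ⟨Y, hY⟩ : ∃ Y, Y = Cc.d η := ⟨_, rfl⟩
    rw [← hX, ← hY]
    have e1 := cc_add_self X
    have e2 := cc_add_self Y
    obtain ⟨A, hA⟩ : ∃ A, A = Cc.cup 1 (Cc.pull (singMap (ContinuousMap.snd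
      (α := Sph (d + (i + 1))) (β := M))) u)
      (Cc.pull (singMap ContinuousMap.fst) (uhat (d + (i + 1)))) := ⟨_, rfl⟩
    rw [← hA]
    calc A = A + 0 + 0 := by rw [add_zero, add_zero]
      _ = A + (X + X) + (Y + Y) := by rw [e1, e2]
      _ = _ := by abel
  by_contra hne
  have hne' : ¬ ∃ a : Cc (sing M), Cc.d a = u := fun ⟨a, ha⟩ => hne ⟨a, ha.symm⟩
  obtain ⟨g1, g2, g3, g4⟩ := uhat_spec hm
  refine K.cross_ne hm hu hne' g1 g2 (Vn_bs_uhat hm) (uhat_ne hm)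
    ⟨Cc.pull (singMap ContinuousMap.prodSwap) v, ?_⟩
  rw [← pull_d, ← hv, pull_cup]
  rfl

/-- **The intersection form is nonsingular**, in the middle dimension, in the form of `count_of_form`. -/
theorem nondeg_mid {q i : ℕ} (hq0 : 0 < q) {c : C(Sph (q + q + (i + 1)), TT (i + 1) M)}
    {T : C(TT (i + 1) (M × M), Sph (q + q + (i + 1)))}
    {Θ : C(TT (i + 1) (M × M), TT (q + q + (i + 1)) M)}
    {c₁ : C(Sph (q + q + (i + 1)) × M, TT (i + 1) (M × M))}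
    (hc : c ∞ = ∞) (hT : T ∞ = ∞) (hΘ0 : Θ ∞ = ∞)
    (hΘ : ∀ z x, Θ (smP (i + 1) (M × M) (z, x)) =
      smP (q + q + (i + 1)) M (T (smP (i + 1) (M × M) (z, x)), x.1))
    (hc₁ : ∀ z p, c₁ (z, p) = smT (c z, p))
    (hH : (Θ.comp c₁).Homotopic (smP (q + q + (i + 1)) M))
    {r p : ι → ℕ} (hβr : ∀ k, Cc.IsDeg (r k) (β k)) (hβ : ∀ k, Cc.d (β k) = 0)
    (hαp : ∀ k, Cc.IsDeg (p k) (α k)) (hα : ∀ k, Cc.d (α k) = 0) {s₀ : Cc (sing (M × M))}
    (hK : DstN (i + 1) (Cc.pull ((singMap T).comp (muT (i + 1) (M × M)))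
      (uhat (q + q + (i + 1)))) +
      ∑ k, Cc.cup 1 (Cc.pull pr2 (β k)) (Cc.pull pr1 (α k)) = Cc.d s₀)
    (u : Cc (sing M)) (hu : Cc.IsDeg q u) (du : Cc.d u = 0) (hne : ¬ ∃ a, u = Cc.d a) :
    ∃ (v : Cc (sing M)) (hv : Cc.IsDeg q v) (dv : Cc.d v = 0),
      Int c (isDeg_cup1 hv hu) (d_cup1_zero dv du) ≠ 0 := by
  by_contra hcon
  push Not at hcon
  refine hne (nondeg (by omega) hc hT hΘ0 hΘ hc₁ hH hβr hβ hαp hα hK hu du ?_)
  intro a p ha da hp h1 h2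
  have hpq : p = q := by omega
  subst hpq
  exact hcon a ha da

end main

end Vale.Agent.P263.FR
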