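import Vale.Agent.P263.FR.Base
import Vale.Agent.P263.KJ.FamTheta
import Vale.Agent.P263.KJ.SqPV

/-!
# P263, V5, block E2: the generalised functional square of a union of two maps

`G : (ℝᴷ × M)⁺ → (ℝᴷ × N)⁺` which at every point agrees with one of the two based maps `G₀`, `G₁`,
the other one being `∞` there.

* `theta_two` : `theta D G ~ theta D G₀ + theta D G₁ + ζ₀ ∪ ζ₁`, where `ζ_k` is the integral of
  `G_k^* b`.
* `DstN_two` : the integral of `G^* b` is `ζ₀ + ζ₁`.
-/

open Finset OnePoint Topology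

namespace Vale.Agent.P263.FR

open Vale.Agent.P263.S hiding sn sn_add
open Vale.Agent.P263.E Vale.Agent.P263.H83 Vale.Agent.P263.G2 Vale.Agent.P263.TJ
open Vale.Agent.P263.KJ
open Vale.Agent.P263.T0 CupC

/-! ### the label system -/

set_option linter.unusedSectionVars false

section lab

variable (X : TSet)

/-- the families with a sign -/
def biT : TSet where
  obj p := X.obj p × Bool
  pull f x := (X.pull f x.1, x.2)
  pull_id x := by rw [X.pull_id]
  pull_comp f g x := by rw [X.pull_comp]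

/-- the families with a sign as labels; two different labels over a family have different signs -/
noncomputable def biL : TLab where
  L := biT X
  O := Bool
  ord s := s.2
  Good {p} F := ∀ a : X.obj p × Bool, a ∈ F → ∀ b : X.obj p × Bool, b ∈ F → a.2 = b.2 → a = b
  good_map := by
    rintro p q f F h _ ⟨a, ha, rfl⟩ _ ⟨b, hb, rfl⟩ hab
    rw [h a ha b hb hab]
  good_sub h h' a ha b hb := h a (h' ha) b (h' hb)
  good_inj := by
    intro p F h i a ha b hb hab
    exact h a ha b hb hab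

variable {X}

/-- the label of a family with a sign -/
def bi {p : ℕ} (x : X.obj p) (b : Bool) : (biL X).L.obj p := (x, b)

/-- the two labels over a family -/
def bis {p : ℕ} (x : X.obj p) : Finset ((biL X).L.obj p) :=
  Finset.univ.map ⟨fun b : Bool => bi x b, fun _ _ h => congrArg Prod.snd h⟩

theorem mem_bis {p : ℕ} {x : X.obj p} {s : (biL X).L.obj p} : s ∈ bis x ↔ ∃ b, bi x b = s := by
  unfold bis
  rw [mem_map]
  constructor
  · rintro ⟨b, -, h⟩
    exact ⟨b, h⟩
  · rintro ⟨b, h⟩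
    exact ⟨b, mem_univ _, h⟩

variable (X) in
/-- the inclusion of the labels with a given sign -/
noncomputable def jb (b : Bool) : SS.Map X.ss (biL X).L.ss := ⟨fun {p} x => bi (p := p) x b, fun _ _ => rfl⟩

end lab

/-! ### the family -/

section fam

variable {M N : Type} [TopologicalSpace M] [CompactSpace M] [T2Space M] [TopologicalSpace N]
  [CompactSpace N] [T2Space N] {K : ℕ}

variable (Gs : Bool → C(TT K M, TT K N)) (hd : ∀ z, Gs false z = ∞ ∨ Gs true z = ∞)

/-- the value of the sheet -/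
noncomputable def twV {p : ℕ} (s : (TSet.sing M).obj p × Bool) (τ : C(G2.Dl p, T0.Sph K)) :
    C(G2.Dl p, TT K N) := (Gs s.2).comp ((smP K M).comp (τ.prodMk (s.1 : C(G2.Dl p, M))))

include hd in
theorem twV_dis {b b' : Bool} (h : b ≠ b') {p : ℕ} (x : (TSet.sing M).obj p)
    (τ : C(G2.Dl p, T0.Sph K)) (t : G2.Dl p) : twV Gs (x, b) τ t = ∞ ∨ twV Gs (x, b') τ t = ∞ := by
  have h1 := hd (smP K M (τ t, (show C(G2.Dl p, M) from x) t))
  cases b <;> cases b'
  · exact absurd rfl h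
  · exact h1
  · exact h1.symm
  · exact absurd rfl h

/-- **the two sheets** -/
noncomputable def twF : PFam (TSet.sing M) (biL (TSet.sing M)) (T0.Sph K) ((Fin K → ℝ) × N) where
  idx x := bis x
  mem_pull := by
    intro p q f x s
    rw [mem_bis]
    constructor
    · rintro ⟨b, rfl⟩
      exact ⟨bi x b, mem_bis.2 ⟨b, rfl⟩, rfl⟩
    · rintro ⟨s', hs', rfl⟩
      obtain ⟨b, rfl⟩ := mem_bis.1 hs'
      exact ⟨b, rfl⟩
  good := by
    intro p x a ha b hb hab
    obtain ⟨c, rfl⟩ := mem_bis.1 (mem_coe.1 ha)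
    obtain ⟨c', rfl⟩ := mem_bis.1 (mem_coe.1 hb)
    have hab' : c = c' := hab
    rw [hab']
  val s τ _ := twV Gs s τ
  val_pull _ _ _ _ := rfl
  disj := by
    intro p x s hs s' hs' hne τ t
    obtain ⟨c, rfl⟩ := mem_bis.1 hs
    obtain ⟨c', rfl⟩ := mem_bis.1 hs'
    exact twV_dis Gs hd (fun h => hne (by rw [h])) x τ t

theorem twF_pointed (hi : ∀ b, Gs b ∞ = ∞) : (twF Gs hd).Pointed (∞ : T0.Sph K) := by
  intro p s τ χ t h
  show Gs s.2 (smP K M (τ t, _)) = ∞
  rw [h, smP_infty, hi]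

variable {Gs hd} {G : C(TT K M, TT K N)}
  (hG : ∀ z, (G z = Gs false z ∧ Gs true z = ∞) ∨ (G z = Gs true z ∧ Gs false z = ∞))

include hG in
/-- **`G` is the join of the two sheets** -/
theorem twF_MX : (twF Gs hd).MX.comp (PFam.jm (TSet.sing M) (cx K)) =
    (singMap G).comp (muT K M) := by
  apply SS.Map.ext
  intro p z
  apply ContinuousMap.ext
  intro t
  show (twF Gs hd).mval z.1 (cxC z.2) t = G (smP K M (cxC z.2 t, toC z.1 t))
  have hb : ∀ b, (bi (X := TSet.sing M) (p := p) z.1 b) ∈ (twF Gs hd).idx (p := p) z.1 :=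
    fun b => mem_bis.2 ⟨b, rfl⟩
  have key : ∀ b : Bool, G (smP K M (cxC z.2 t, toC z.1 t)) =
      Gs b (smP K M (cxC z.2 t, toC z.1 t)) → (∀ b', b' ≠ b →
      Gs b' (smP K M (cxC z.2 t, toC z.1 t)) = ∞) →
      (twF Gs hd).mval z.1 (cxC z.2) t = G (smP K M (cxC z.2 t, toC z.1 t)) := by
    intro b h1 h2
    rw [h1]
    by_cases h3 : Gs b (smP K M (cxC z.2 t, toC z.1 t)) = ∞
    · rw [h3]
      rcases (twF Gs hd).mval_cases z.1 (cxC z.2) t with h4 | ⟨s, hs, h4⟩
      · exact h4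
      · rw [h4]
        obtain ⟨b', rfl⟩ := mem_bis.1 hs
        by_cases h5 : b' = b
        · rw [h5]; exact h3
        · exact h2 b' h5
    · exact (twF Gs hd).mval_of_mem (hb b) h3
  rcases hG (smP K M (cxC z.2 t, toC z.1 t)) with ⟨h1, h2⟩ | ⟨h1, h2⟩
  · refine key false h1 fun b' hb' => ?_
    cases b'
    · exact absurd rfl hb'
    · exact h2
  · refine key true h1 fun b' hb' => ?_
    cases b'
    · exact h2
    · exact absurd rfl hb'

/-! ### the quadratic correction -/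

section lbl

variable (M)

/-- the sheet of a label over itself -/
noncomputable def shb {M : Type} [TopologicalSpace M] (b : Bool) {p : ℕ}
    (x : (TSet.sing M).ss.obj p) : Sheet (biL (TSet.sing M)).lab (biL (TSet.sing M)).L.ss p :=
  (TLab.toL (bi (X := TSet.sing M) (p := p) x b), bi (X := TSet.sing M) (p := p) x b)

/-- the ordered pair of the labels with different signs -/
noncomputable def dpr (b : Bool) : SS.Map (sing M)
    (Pr (biL (TSet.sing M)).lab (biL (TSet.sing M)).L.ss) where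
  app x := ⟨(shb b x, shb (!b) x), fun i => by
    show b ≠ !b
    cases b <;> decide⟩
  nat _ _ := rfl

theorem dpr_oo_false : Cc.pull (dpr M false) (oo _ _) = Cc.one _ := by
  classical
  funext p x
  show oo (biL (TSet.sing M)).lab (biL (TSet.sing M)).L.ss p ((dpr M false).app x) = _
  unfold oo Cc.one
  by_cases hp : p = 0
  · rw [if_pos hp, if_pos]
    refine ⟨hp, ?_⟩
    show false < true
    decide
  · rw [if_neg hp, if_neg fun h => hp h.1]

theorem dpr_oo_true : Cc.pull (dpr M true) (oo _ _) = 0 := by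
  classical
  funext p x
  show oo (biL (TSet.sing M)).lab (biL (TSet.sing M)).L.ss p ((dpr M true).app x) = 0
  unfold oo
  rw [if_neg]
  rintro ⟨-, h⟩
  have h1 : true < false := h
  exact absurd h1 (by decide)

theorem dpr_vv (b : Bool) : Cc.pull (dpr M b) (vv _ _) = 0 := by
  unfold vv
  rw [pull_d]
  cases b
  · rw [dpr_oo_false, d_one]
  · rw [dpr_oo_true]
    exact d_zero

theorem dpr_vo (b : Bool) (k : ℕ) : Cc.pull (dpr M b) (vo _ _ (k + 1)) = 0 := by
  show Cc.pull (dpr M b) (Cc.cup 1 (vv _ _) (vo _ _ k)) = 0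
  rw [pull_cup, dpr_vv, cup_zero_left]

theorem dpr_qt_succ (b : Bool) (z : Cc (biL (TSet.sing M)).L.ss) (k : ℕ) :
    Cc.pull (dpr M b) (qt _ 0 0 z (k + 1)) = 0 := by
  unfold qt
  rw [pull_cup, Nat.zero_add, dpr_vo, cup_zero_left]

theorem dpr_qt_false (z : Cc (biL (TSet.sing M)).L.ss) :
    Cc.pull (dpr M false) (qt _ 0 0 z 0) =
      Cc.cup 1 (Cc.pull (jb (TSet.sing M) false) z) (Cc.pull (jb (TSet.sing M) true) z) := by
  unfold qt
  rw [pull_cup]
  show Cc.cup 1 (Cc.pull (dpr M false) (oo _ _)) _ = _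
  rw [dpr_oo_false, one_cup]
  exact pull_cup _ _ _ _

theorem dpr_qt_true (z : Cc (biL (TSet.sing M)).L.ss) :
    Cc.pull (dpr M true) (qt _ 0 0 z 0) = 0 := by
  unfold qt
  rw [pull_cup]
  show Cc.cup 1 (Cc.pull (dpr M true) (oo _ _)) _ = _
  rw [dpr_oo_true, cup_zero_left]

theorem dpr_sum (b : Bool) (z : Cc (biL (TSet.sing M)).L.ss) (p : ℕ) :
    Cc.pull (dpr M b) (∑ k ∈ range (p + 1), qt _ 0 0 z k) =
      Cc.pull (dpr M b) (qt _ 0 0 z 0) := by
  rw [pull_sum, sum_range_succ', sum_eq_zero, zero_add]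
  intro k _
  exact dpr_qt_succ M b z k

end lbl

theorem sum_idF {p : ℕ} (x : (TSet.sing M).ss.obj p)
    (f : Sheet (biL (TSet.sing M)).lab (biL (TSet.sing M)).L.ss p → ZMod 2) :
    ∑ a ∈ (twF Gs hd).idF x, f a = f (shb false x) + f (shb true x) := by
  classical
  have h1 : (twF Gs hd).idF x = Finset.univ.image fun b : Bool => shb b x := by
    ext a
    rw [PFam.mem_idF, mem_image]
    constructor
    · rintro ⟨s, hs, rfl⟩
      obtain ⟨b, rfl⟩ := mem_bis.1 hs
      exact ⟨b, mem_univ _, rfl⟩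
    · rintro ⟨b, -, rfl⟩
      exact ⟨bi (X := TSet.sing M) (p := p) x b, mem_bis.2 ⟨b, rfl⟩, rfl⟩
  rw [h1, sum_image, Fintype.sum_bool, add_comm]
  intro b _ b' _ h
  exact congrArg (fun a : Sheet (biL (TSet.sing M)).lab (biL (TSet.sing M)).L.ss p => a.1.2) h

theorem ex_shb (b : Bool) (c : Cc (Pr (biL (TSet.sing M)).lab (biL (TSet.sing M)).L.ss)) {p : ℕ}
    (x : (TSet.sing M).ss.obj p) : ex c (shb b x) (shb (!b) x) = Cc.pull (dpr M b) c p x :=
  ex_of ((dpr M b).app x).2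

/-- the quadratic correction of the two labels -/
theorem pull_idG_KK (z : Cc (biL (TSet.sing M)).L.ss) :
    Cc.pull (twF Gs hd).idG (KK (biL (TSet.sing M)).lab (Sb.empty _) 0 0 z) =
      Cc.cup 1 (Cc.pull (jb (TSet.sing M) false) z) (Cc.pull (jb (TSet.sing M) true) z) := by
  funext p x
  have h0 : Cc.pull (twF Gs hd).idG (KK (biL (TSet.sing M)).lab (Sb.empty _) 0 0 z) p x =
      ∑ a ∈ (twF Gs hd).idF x, ∑ b ∈ (twF Gs hd).idF x,
        ex (∑ k ∈ range (p + 1), qt _ 0 0 z k) a b := rfl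
  rw [h0, sum_idF, sum_idF, sum_idF, ex_self, ex_self, zero_add, add_zero]
  have h1 := ex_shb (M := M) false (∑ k ∈ range (p + 1), qt _ 0 0 z k) (p := p) x
  have h2 := ex_shb (M := M) true (∑ k ∈ range (p + 1), qt _ 0 0 z k) (p := p) x
  rw [dpr_sum] at h1 h2
  rw [dpr_qt_false] at h1
  rw [dpr_qt_true] at h2
  refine (congrArg₂ (· + ·) h1 h2).trans ?_
  exact add_zero _

theorem pull_idG_hat (z : Cc (biL (TSet.sing M)).L.ss) :
    Cc.pull (twF Gs hd).idG (hat (biL (TSet.sing M)).lab (Sb.empty _) z) =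
      Cc.pull (jb (TSet.sing M) false) z + Cc.pull (jb (TSet.sing M) true) z := by
  funext p x
  have h0 : Cc.pull (twF Gs hd).idG (hat (biL (TSet.sing M)).lab (Sb.empty _) z) p x =
      ∑ a ∈ (twF Gs hd).idF x, z p a.2 := rfl
  rw [h0, sum_idF]
  rfl

end fam

section main

variable {M N : Type} [TopologicalSpace M] [CompactSpace M] [T2Space M] [TopologicalSpace N]
  [CompactSpace N] [T2Space N] {i : ℕ} {Gs : Bool → C(TT (i + 1) M, TT (i + 1) N)}
  {G : C(TT (i + 1) M, TT (i + 1) N)}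
  (hG : ∀ z, (G z = Gs false z ∧ Gs true z = ∞) ∨ (G z = Gs true z ∧ Gs false z = ∞))
  (hi : ∀ b, Gs b ∞ = ∞)

/-- the cube of a map -/
theorem cub_base {G : C(TT (i + 1) M, TT (i + 1) N)} (hi : G ∞ = ∞) {p : ℕ}
    (x : ((sing M).prod (SN (i + 1))).obj p) (hx : (bdX (sing M) (i + 1)).mem x) :
    (bsT (i + 1) N).mem (((singMap G).comp (muT (i + 1) M)).app x) := fun t => by
  have h1 : toC ((muT (i + 1) M).app x) t = ∞ := muT_infty (i + 1) M hx t
  show G (toC ((muT (i + 1) M).app x) t) = ∞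
  rw [h1, hi]

/-- the same with the other name of the base -/
theorem cub_pt {G : C(TT (i + 1) M, TT (i + 1) N)} (hi : G ∞ = ∞) {p : ℕ}
    (x : ((sing M).prod (SN (i + 1))).obj p) (hx : (bdX (sing M) (i + 1)).mem x) :
    (ptS (∞ : TT (i + 1) N)).mem (((singMap G).comp (muT (i + 1) M)).app x) := cub_base hi x hx

theorem theta_cgr {T X : SS} {T₀ : Sb T} (D : SqD T₀ (i + 1))
    {m m' : SS.Map (X.prod (SN (i + 1))) T} (h : m = m')
    {hm : ∀ {p : ℕ} (x : (X.prod (SN (i + 1))).obj p), (bdX X (i + 1)).mem x →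
      T₀.mem (m.app x)}
    {hm' : ∀ {p : ℕ} (x : (X.prod (SN (i + 1))).obj p), (bdX X (i + 1)).mem x →
      T₀.mem (m'.app x)} : theta D m hm = theta D m' hm' := by
  subst h
  rfl

variable {hd : ∀ z, Gs false z = ∞ ∨ Gs true z = ∞}

theorem uY0_jb (b : Bool) : ((twF Gs hd).uY0 (cx (i + 1))).comp
    (timesN (jb (TSet.sing M) b) (i + 1)) = (singMap (Gs b)).comp (muT (i + 1) M) := by
  apply SS.Map.ext
  intro p z
  exact (twF Gs hd).uY0_app (cx (i + 1)) (bi (X := TSet.sing M) (p := p) z.1 b) z.2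

theorem cx_pt {p : ℕ} (x : (SN (i + 1)).obj p) (hx : (SN.base (i + 1)).mem x) :
    (ptS (∞ : T0.Sph (i + 1))).mem ((cx (i + 1)).app x) := cx_base hx

theorem DstN_jb (b : Bool) (u : Cc (sing (TT (i + 1) N))) :
    Cc.pull (jb (TSet.sing M) b) (DstN (i + 1) (Cc.pull ((twF Gs hd).uY0 (cx (i + 1))) u)) =
      DstN (i + 1) (Cc.pull ((singMap (Gs b)).comp (muT (i + 1) M)) u) := by
  rw [← uY0_jb (hd := hd) b]
  exact (DstN_pull (i + 1) (jb (TSet.sing M) b) _).symm

theorem theta_jb (D : SqD (ptS (∞ : TT (i + 1) N)) (i + 1)) (b : Bool) :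
    (Cc.cupC (sing M)).Coh
    (theta D ((singMap (Gs b)).comp (muT (i + 1) M)) (cub_pt (hi b)))
    (Cc.pull (jb (TSet.sing M) b) (theta D ((twF Gs hd).uY0 (cx (i + 1)))
      ((twF Gs hd).uY0_base cx_pt (twF_pointed Gs hd hi)))) :=
  theta_pull D (jb (TSet.sing M) b) (uY0_jb (hd := hd) b).symm

include hG in
theorem dis_of : ∀ z, Gs false z = ∞ ∨ Gs true z = ∞ := fun z => by
  rcases hG z with h | h
  · exact Or.inr h.2
  · exact Or.inl h.2

include hG in
theorem theta_two' (D : SqD (ptS (∞ : TT (i + 1) N)) (i + 1))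
    (hb : Vn (inU (misT (i + 1) N)) D.b) (hc : Vn (inU (misT (i + 1) N)) D.c) (hi' : G ∞ = ∞) :
    (Cc.cupC (sing M)).Coh
    (theta D ((singMap G).comp (muT (i + 1) M)) (cub_pt hi'))
    (theta D ((singMap (Gs false)).comp (muT (i + 1) M)) (cub_pt (hi false)) +
      theta D ((singMap (Gs true)).comp (muT (i + 1) M)) (cub_pt (hi true)) +
      Cc.cup 1 (DstN (i + 1) (Cc.pull ((singMap (Gs false)).comp (muT (i + 1) M)) D.b))
        (DstN (i + 1) (Cc.pull ((singMap (Gs true)).comp (muT (i + 1) M)) D.b))) := by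
  have hd := dis_of hG
  have h1 := (twF Gs hd).theta_fam0 cx_pt (twF_pointed Gs hd hi) (isClosed_zT (i + 1) N)
    (infty_notMem_zT (i + 1) N) D (hb.mono fun _ h => missZ_zT.1 h)
    (hc.mono fun _ h => missZ_zT.1 h) (CupC.Coh.refl _) (CupC.Coh.refl _)
  rw [pull_add, pull_idG_KK, pull_idG_hat, DstN_jb, DstN_jb,
    theta_cgr D (twF_MX (hd := hd) hG) (hm' := cub_pt hi')] at h1
  have h2 : ∀ a b : Cc (sing M), (Cc.cupC (sing M)).Coh (a + b) (b + a) := fun a b => by
    rw [add_comm]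
    exact CupC.Coh.refl _
  exact (h1.trans ((CupC.Coh.refl _).add ((theta_jb (hd := hd) hi D false).symm.add
    (theta_jb (hd := hd) hi D true).symm))).trans (h2 _ _)

/-- the sum over the two sheets -/
theorem sum_fsh {b : Cc (sing (TT (i + 1) N))} (hv : Vn (ptS (∞ : TT (i + 1) N)) b) {p : ℕ}
    (x : (TSet.sing M).obj p) (τ : C(G2.Dl p, T0.Sph (i + 1))) (χ : C(G2.Dl p, unitInterval)) :
    ∑ a ∈ (twF Gs hd).fsh x τ χ, b p a.2 =
      b p (ofC (twV Gs (x, false) τ)) + b p (ofC (twV Gs (x, true) τ)) := by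
  classical
  have h2 : (twF Gs hd).fsh x τ χ =
      (Finset.univ.image fun bb : Bool =>
        ((TLab.toL (bi x bb), ofC (twV Gs (x, bb) τ)) :
            Sheet (biL (TSet.sing M)).lab (G2.sing (TT (i + 1) N)) p)).filter
        fun s => ¬ (ptS ∞).mem s.2 := by
    ext a
    rw [PFam.mem_fsh, mem_filter, mem_image]
    constructor
    · rintro ⟨s, hs, rfl, h⟩
      obtain ⟨bb, rfl⟩ := mem_bis.1 hs
      exact ⟨⟨bb, mem_univ _, rfl⟩, h⟩
    · rintro ⟨⟨bb, -, rfl⟩, h⟩
      exact ⟨bi x bb, mem_bis.2 ⟨bb, rfl⟩, rfl, h⟩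
  rw [h2, sum_filter_of_ne, sum_image, Fintype.sum_bool, add_comm]
  · intro bb _ bb' _ h
    exact congrArg (fun a : Sheet (biL (TSet.sing M)).lab (G2.sing (TT (i + 1) N)) p =>
      a.1.2) h
  · intro a _ ha hpt
    exact ha (hv p _ hpt)

/-- the map `1 × cx` -/
noncomputable def jM : SS.Map ((sing M).prod (SN (i + 1)))
    (PFam.U (TSet.sing M) (T0.Sph (i + 1))).ss := PFam.jm (TSet.sing M) (cx (i + 1))

include hG hi in
theorem DstN_two' {b : Cc (sing (TT (i + 1) N))} (hv : Vn (ptS (∞ : TT (i + 1) N)) b)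
    (hdb : Cc.d b = 0) (hb : Vn (inU (misT (i + 1) N)) b) :
    (Cc.cupC (sing M)).Coh
    (DstN (i + 1) (Cc.pull ((singMap G).comp (muT (i + 1) M)) b))
    (DstN (i + 1) (Cc.pull ((singMap (Gs false)).comp (muT (i + 1) M)) b) +
      DstN (i + 1) (Cc.pull ((singMap (Gs true)).comp (muT (i + 1) M)) b)) := by
  have hd := dis_of hG
  have hs := (twF Gs hd).strict (isClosed_zT (i + 1) N) (infty_notMem_zT (i + 1) N)
  have hb' : Vn (missZ (zT (i + 1) N)) b := hb.mono fun _ h => missZ_zT.1 h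
  obtain ⟨η, hη, hη0⟩ := hs.loc.exists'
    (u := Cc.pull (twF Gs hd).MX b + Cc.pull (twF Gs hd).aX0 (hat _ _ b))
    (by rw [TJ.d_add, ← pull_d, ← pull_d, d_hat hv, hdb, hat_zero, pull_zero, pull_zero,
      add_zero])
    (fun p u hu => by
      show Cc.pull (twF Gs hd).MX b p u + Cc.pull (twF Gs hd).aX0 (hat _ _ b) p u = 0
      rw [hs.hat_small hb' u hu]
      exact CharTwo.add_self_eq_zero _)
  have h1 : Cc.pull (jM (M := M) (i := i)) (Cc.pull (twF Gs hd).MX b) =
      Cc.pull ((singMap G).comp (muT (i + 1) M)) b := by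
    rw [← twF_MX (hd := hd) hG]
    rfl
  have h2 : Cc.pull (jM (M := M) (i := i)) (Cc.pull (twF Gs hd).aX0 (hat _ _ b)) =
      Cc.pull ((singMap (Gs false)).comp (muT (i + 1) M)) b +
        Cc.pull ((singMap (Gs true)).comp (muT (i + 1) M)) b := by
    funext p z
    exact sum_fsh (hd := hd) hv z.1 (cxC z.2) (chiI (c0 p))
  have h3 : Vn (bdX (sing M) (i + 1)) (Cc.pull (jM (M := M) (i := i)) η) :=
    fun p z hz => hη0 p _ ((twF Gs hd).pb_sm (twF_pointed Gs hd hi) (infty_notMem_zT (i + 1) N) _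
      (PFam.jm_base (X := TSet.sing M) cx_pt z hz))
  have h5 := DstN_d h3
  have h6 : Cc.d (Cc.pull (jM (M := M) (i := i)) η) =
      Cc.pull ((singMap G).comp (muT (i + 1) M)) b +
      (Cc.pull ((singMap (Gs false)).comp (muT (i + 1) M)) b +
        Cc.pull ((singMap (Gs true)).comp (muT (i + 1) M)) b) := by
    rw [← pull_d, hη, pull_add, h1, h2]
  rw [h6, DstN_add, DstN_add] at h5
  exact ⟨_, h5⟩

/-! ### the statements for the base `bsT` -/

variable (D : SqD (bsT (i + 1) N) (i + 1))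
  (hb : Vn (inU (misT (i + 1) N)) D.b) (hc : Vn (inU (misT (i + 1) N)) D.c)

include hG hb hc in
/-- **The generalised functional square of a union of two maps.** -/
theorem theta_two (hi' : G ∞ = ∞) : (Cc.cupC (sing M)).Coh
    (theta D ((singMap G).comp (muT (i + 1) M)) (cub_base hi'))
    (theta D ((singMap (Gs false)).comp (muT (i + 1) M)) (cub_base (hi false)) +
      theta D ((singMap (Gs true)).comp (muT (i + 1) M)) (cub_base (hi true)) +
      Cc.cup 1 (DstN (i + 1) (Cc.pull ((singMap (Gs false)).comp (muT (i + 1) M)) D.b))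
        (DstN (i + 1) (Cc.pull ((singMap (Gs true)).comp (muT (i + 1) M)) D.b))) :=
  theta_two' hG hi D hb hc hi'

include hG hi hb in
/-- **The integral of a union of two maps.** -/
theorem DstN_two : (Cc.cupC (sing M)).Coh
    (DstN (i + 1) (Cc.pull ((singMap G).comp (muT (i + 1) M)) D.b))
    (DstN (i + 1) (Cc.pull ((singMap (Gs false)).comp (muT (i + 1) M)) D.b) +
      DstN (i + 1) (Cc.pull ((singMap (Gs true)).comp (muT (i + 1) M)) D.b)) :=
  DstN_two' hG hi D.vn_b D.d_b hb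

end main

section main01

variable {M N : Type} [TopologicalSpace M] [CompactSpace M] [T2Space M] [TopologicalSpace N]
  [CompactSpace N] [T2Space N] {i : ℕ} {G G₀ G₁ : C(TT (i + 1) M, TT (i + 1) N)}
  (hG : ∀ z, (G z = G₀ z ∧ G₁ z = ∞) ∨ (G z = G₁ z ∧ G₀ z = ∞))
  (h0 : G₀ ∞ = ∞) (h1 : G₁ ∞ = ∞) (D : SqD (bsT (i + 1) N) (i + 1))
  (hb : Vn (inU (misT (i + 1) N)) D.b) (hc : Vn (inU (misT (i + 1) N)) D.c)

/-- the two maps as a family -/
def two01 (G₀ G₁ : C(TT (i + 1) M, TT (i + 1) N)) : Bool → C(TT (i + 1) M, TT (i + 1) N)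
  | false => G₀
  | true => G₁

include h0 h1 in
theorem two01_inf : ∀ b, two01 G₀ G₁ b ∞ = ∞
  | false => h0
  | true => h1

include hG hb hc in
/-- **The generalised functional square of a union of two maps.** -/
theorem theta_two01 (hi' : G ∞ = ∞) : (Cc.cupC (sing M)).Coh
    (theta D ((singMap G).comp (muT (i + 1) M)) (cub_base hi'))
    (theta D ((singMap G₀).comp (muT (i + 1) M)) (cub_base h0) +
      theta D ((singMap G₁).comp (muT (i + 1) M)) (cub_base h1) +
      Cc.cup 1 (DstN (i + 1) (Cc.pull ((singMap G₀).comp (muT (i + 1) M)) D.b))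
        (DstN (i + 1) (Cc.pull ((singMap G₁).comp (muT (i + 1) M)) D.b))) :=
  theta_two (Gs := two01 G₀ G₁) hG (two01_inf h0 h1) D hb hc hi'

include hG h0 h1 hb in
/-- **The integral of a union of two maps.** -/
theorem DstN_two01 : (Cc.cupC (sing M)).Coh
    (DstN (i + 1) (Cc.pull ((singMap G).comp (muT (i + 1) M)) D.b))
    (DstN (i + 1) (Cc.pull ((singMap G₀).comp (muT (i + 1) M)) D.b) +
      DstN (i + 1) (Cc.pull ((singMap G₁).comp (muT (i + 1) M)) D.b)) :=
  DstN_two (Gs := two01 G₀ G₁) hG (two01_inf h0 h1) D hb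

end main01

section jR

variable {M N : Type} [TopologicalSpace M] [CompactSpace M] [T2Space M] [TopologicalSpace N]
  [CompactSpace N] [T2Space N] {i q : ℕ} {G G₀ G₁ : C(TT (i + 1) M, TT (i + 1) N)}
  (hG : ∀ z, (G z = G₀ z ∧ G₁ z = ∞) ∨ (G z = G₁ z ∧ G₀ z = ∞))
  (h0 : G₀ ∞ = ∞) (h1 : G₁ ∞ = ∞) {z : Cc (sing N)} (hq : Cc.IsDeg q z) (hz : Cc.d z = 0)

include hG in
/-- the same for the literal data -/
theorem theta_jR_two (hi' : G ∞ = ∞) : (Cc.cupC (sing M)).Coh
    (theta (jR i hq hz) ((singMap G).comp (muT (i + 1) M)) (cub_base hi'))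
    (theta (jR i hq hz) ((singMap G₀).comp (muT (i + 1) M)) (cub_base h0) +
      theta (jR i hq hz) ((singMap G₁).comp (muT (i + 1) M)) (cub_base h1) +
      Cc.cup 1 (DstN (i + 1) (Cc.pull ((singMap G₀).comp (muT (i + 1) M)) (jR i hq hz).b))
        (DstN (i + 1) (Cc.pull ((singMap G₁).comp (muT (i + 1) M)) (jR i hq hz).b))) :=
  theta_two01 hG h0 h1 (jR i hq hz) (jtD i hq hz).vn_b (jtD i hq hz).vn_c hi'

include hG h0 h1 in
theorem DstN_jR_two : (Cc.cupC (sing M)).Coh
    (DstN (i + 1) (Cc.pull ((singMap G).comp (muT (i + 1) M)) (jR i hq hz).b))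
    (DstN (i + 1) (Cc.pull ((singMap G₀).comp (muT (i + 1) M)) (jR i hq hz).b) +
      DstN (i + 1) (Cc.pull ((singMap G₁).comp (muT (i + 1) M)) (jR i hq hz).b)) :=
  DstN_two01 hG h0 h1 (jR i hq hz) (jtD i hq hz).vn_b

end jR

end Vale.Agent.P263.FR
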