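import Vale.Agent.P263.FR.Base

/-!
# P263, V5, block C: the classes `b^K_u` of graphs

`K > 0`, `P`, `Q` compact Hausdorff spaces; `b` is a cochain on `(ℝᴷ × P)⁺` as in `exists_SqT` (its
restriction to `ℝᴷ × P` is `pr_P^* u ∪ pr_E^* u_E`, and it vanishes on the simplices which miss `0 × P`).

* `graph_b` : for `h : W → Sᴷ`, `r : W → P`, the cochain `(h ∧ r)^* b_u` is `r^* u ∪ h^* û` up to a
  relative coboundary.
* `wedge_b` : for `c : W → (ℝᴷ × P)⁺`, `r : W → Q`, the cochain `(c ∧ r)^* b_(y ∪ x)` is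
  `r^* y ∪ c^* b_x` up to a relative coboundary.
* `DstN_cup_fst` : the integral of `pr^* u ∪ w` is `u ∪ ∫ w`.
* `DstN_graph` : the integral of `(h ∧ g)^* b_u` over the cube is `g^* u ∪ ∫ h^* û`.
-/

open Finset OnePoint Topology

namespace Vale.Agent.P263.FR

open Vale.Agent.P263.S hiding sn sn_add
open Vale.Agent.P263.E Vale.Agent.P263.H83 Vale.Agent.P263.G2 Vale.Agent.P263.TJ
open Vale.Agent.P263.T0 CupC

set_option linter.unusedSectionVars false

/-! ### small simplices for two open sets -/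

section small

variable {W : Type} [TopologicalSpace W]

/-- small simplices for two open sets -/
theorem exists_small2 {A B : Set W} (hA : IsOpen A) (hB : IsOpen B) (hc : ∀ w, w ∈ A ∨ w ∈ B)
    {u : Cc (sing W)} (hu : Cc.d u = 0) (h0 : Vn (inU A) u) (h1 : Vn (inU B) u) :
    ∃ v : Cc (sing W), Cc.d v = u ∧ Vn (inU A) v ∧ Vn (inU B) v := by
  obtain ⟨v, h2, h3⟩ := cover_small (Y := W) (U := fun i : Bool => if i then A else B)
    (fun i => by
      cases i
      · exact hB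
      · exact hA)
    (fun y => (hc y).elim (fun h => ⟨true, h⟩) fun h => ⟨false, h⟩) hu
    (fun i => by
      cases i
      · exact h1
      · exact h0)
  exact ⟨v, h2, h3 true, h3 false⟩

/-- the inclusion of a subset -/
def sinc (A : Set W) : C(A, W) := ⟨Subtype.val, continuous_subtype_val⟩

theorem vn_inU_iff {A : Set W} {u : Cc (sing W)} :
    Vn (inU A) u ↔ Cc.pull (singMap (sinc A)) u = 0 := by
  have hj : Topology.IsEmbedding (sinc A) := Topology.IsEmbedding.subtypeVal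
  have hr : Set.range (sinc A) = A := Subtype.range_coe
  rw [← Vn_range_iff hj, hr]

end small

/-! ### the classes -/

section classes

variable {W : Type} [TopologicalSpace W] {P Q : Type} [TopologicalSpace P] [CompactSpace P]
  [T2Space P] [TopologicalSpace Q] [CompactSpace Q] [T2Space Q] {K : ℕ}

/-- the properties of the literal class of the cocycle `u` -/
structure IsB (K : ℕ) (u : Cc (sing P)) (b : Cc (sing (TT K P))) : Prop where
  d_b : Cc.d b = 0
  vn : Vn (inU (misT K P)) b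
  coe : Cc.pull (singMap (coeT K P)) b = bEP K u

theorem isB_jR {i q : ℕ} {x : Cc (sing P)} (hq : Cc.IsDeg q x) (hx : Cc.d x = 0) :
    IsB (i + 1) x (jR i hq hx).b := ⟨(jtD i hq hx).d_b, (jtD i hq hx).vn_b, jtD_coe hq hx⟩

/-- the part in `ℝᴷ × P` -/
theorem exists_fin {c : C(W, TT K P)} {A : Set W} (hA : ∀ w ∈ A, c w ≠ ∞) :
    ∃ τ : C(A, (Fin K → ℝ) × P), ∀ w : A, c w = ((τ w : (Fin K → ℝ) × P) : TT K P) := by
  have hj : Topology.IsEmbedding (coeT K P) := OnePoint.isOpenEmbedding_coe.isEmbedding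
  have h : ∀ t : A, (c.comp (sinc A)) t ∈ Set.range (coeT K P) := fun t => by
    obtain ⟨z, hz⟩ := OnePoint.ne_infty_iff_exists.1 (hA t.1 t.2)
    exact ⟨z, hz⟩
  refine ⟨liftE hj (c.comp (sinc A)) h, fun w => ?_⟩
  exact (DFunLike.congr_fun (liftE_spec hj (c.comp (sinc A)) h) w).symm

theorem IsB.pull_fin {u : Cc (sing P)} {b : Cc (sing (TT K P))} (hb : IsB K u b)
    {c : C(W, TT K P)} {A : Set W} {τ : C(A, (Fin K → ℝ) × P)}
    (hτ : ∀ w : A, c w = ((τ w : (Fin K → ℝ) × P) : TT K P)) :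
    Cc.pull (singMap (sinc A)) (Cc.pull (singMap c) b) =
      Cc.cup 1 (Cc.pull (singMap (ContinuousMap.snd.comp τ)) u)
        (Cc.pull (singMap (ContinuousMap.fst.comp τ)) (uE K)) := by
  have h1 : c.comp (sinc A) = (coeT K P).comp τ := ContinuousMap.ext hτ
  have h2 : Cc.pull (singMap (sinc A)) (Cc.pull (singMap c) b) =
      Cc.pull (singMap (c.comp (sinc A))) b := rfl
  have h3 : Cc.pull (singMap ((coeT K P).comp τ)) b =
      Cc.pull (singMap τ) (Cc.pull (singMap (coeT K P)) b) := rfl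
  rw [h2, h1, h3, hb.coe, bEP, pull_cup]
  rfl

/-- **The class of a graph.** -/
theorem graph_b (hK : 0 < K) {u : Cc (sing P)} (hu : Cc.d u = 0) {b : Cc (sing (TT K P))}
    (hb : IsB K u b) {h : C(W, Sph K)} {r : C(W, P)} {φ : C(W, TT K P)}
    (hφ : ∀ w, φ w = smP K P (h w, r w)) :
    ∃ η : Cc (sing W), Vn (inU {w | h w ≠ ∞}) η ∧ Vn (inU {w | h w ≠ ((0 : Fin K → ℝ) : Sph K)}) η ∧
      Cc.pull (singMap φ) b =
        Cc.cup 1 (Cc.pull (singMap r) u) (Cc.pull (singMap h) (uhat K)) + Cc.d η := by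
  obtain ⟨h1, h2, h3, h4⟩ := uhat_spec hK
  have hA : ∀ w ∈ {w | h w ≠ ∞}, φ w ≠ ∞ := by
    intro w hw hc
    rw [hφ] at hc
    obtain ⟨v, hv⟩ := OnePoint.ne_infty_iff_exists.1 hw
    rw [← hv] at hc
    exact OnePoint.coe_ne_infty _ hc
  obtain ⟨τ, hτ⟩ := exists_fin hA
  have hτ1 : ∀ w : {w | h w ≠ ∞}, h w = (((τ w).1 : Fin K → ℝ) : Sph K) ∧ r w = (τ w).2 := by
    intro w
    have h5 := hτ w
    rw [hφ] at h5
    obtain ⟨v, hv⟩ := OnePoint.ne_infty_iff_exists.1 w.2
    rw [← hv] at h5 ⊢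
    have h6 : (v, r w) = τ w := OnePoint.coe_injective h5
    rw [← h6]
    exact ⟨rfl, rfl⟩
  obtain ⟨η, h5, h6, h7⟩ := exists_small2 (A := {w | h w ≠ ∞})
    (B := {w | h w ≠ ((0 : Fin K → ℝ) : Sph K)})
    (OnePoint.isClosed_infty.isOpen_compl.preimage h.continuous)
    (isOpen_ne.preimage h.continuous)
    (fun w => by
      by_cases hw : h w = ∞
      · right
        show h w ≠ _
        rw [hw]
        exact OnePoint.infty_ne_coe _
      · exact Or.inl hw)
    (u := Cc.pull (singMap φ) b +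
      Cc.cup 1 (Cc.pull (singMap r) u) (Cc.pull (singMap h) (uhat K)))
    (by rw [TJ.d_add, d_cup_one, ← pull_d, ← pull_d, ← pull_d, hb.d_b, hu, h2, pull_zero,
      pull_zero, pull_zero, cup_zero_left, cup_zero_right, add_zero, add_zero])
    (by
      rw [vn_inU_iff, pull_add, hb.pull_fin hτ, pull_cup]
      have e1 : Cc.pull (singMap (sinc {w | h w ≠ ∞})) (Cc.pull (singMap r) u) =
          Cc.pull (singMap (ContinuousMap.snd.comp τ)) u := by
        have e : r.comp (sinc {w | h w ≠ ∞}) = ContinuousMap.snd.comp τ :=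
          ContinuousMap.ext fun w => (hτ1 w).2
        rw [← e]
        rfl
      have e2 : Cc.pull (singMap (sinc {w | h w ≠ ∞})) (Cc.pull (singMap h) (uhat K)) =
          Cc.pull (singMap (ContinuousMap.fst.comp τ)) (uE K) := by
        have e : h.comp (sinc {w | h w ≠ ∞}) = (coeS K).comp (ContinuousMap.fst.comp τ) :=
          ContinuousMap.ext fun w => (hτ1 w).1
        have e' : Cc.pull (singMap (sinc {w | h w ≠ ∞})) (Cc.pull (singMap h) (uhat K)) =
          Cc.pull (singMap (h.comp (sinc {w | h w ≠ ∞}))) (uhat K) := rfl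
        rw [e', e, ← h4]
        rfl
      rw [e1, e2, cc_add_self])
    (by
      refine Vn.add (fun p σ hσ => ?_) (Vn.cup_right 1 _ fun p σ hσ => h3 p _ hσ)
      refine hb.vn p _ fun t => ?_
      show φ (toC σ t) ∈ misT K P
      rw [hφ]
      exact smP_misT (hσ t))
  refine ⟨η, h6, h7, ?_⟩
  rw [h5, add_left_comm, cc_add_self, add_zero]

/-- **The class of the product with a map.** -/
theorem wedge_b {x : Cc (sing P)} {y : Cc (sing Q)} (hy : Cc.d y = 0)
    {b : Cc (sing (TT K P))} (hb : IsB K x b) {b' : Cc (sing (TT K (P × Q)))}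
    (hb' : IsB K (Cc.cup 1 (Cc.pull (singMap ContinuousMap.snd) y)
      (Cc.pull (singMap ContinuousMap.fst) x)) b')
    {c : C(W, TT K P)} {r : C(W, Q)} {φ : C(W, TT K (P × Q))}
    (hφ0 : ∀ w, c w = ∞ → φ w = ∞)
    (hφ : ∀ (w : W) (v : Fin K → ℝ) (z : P), c w = (((v, z) : (Fin K → ℝ) × P) : TT K P) →
      φ w = (((v, (z, r w)) : (Fin K → ℝ) × (P × Q)) : TT K (P × Q))) :
    ∃ η : Cc (sing W), Vn (inU {w | c w ≠ ∞}) η ∧ Vn (inU {w | c w ∈ misT K P}) η ∧
      Cc.pull (singMap φ) b' =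
        Cc.cup 1 (Cc.pull (singMap r) y) (Cc.pull (singMap c) b) + Cc.d η := by
  obtain ⟨τ, hτ⟩ := exists_fin (c := c) (A := {w | c w ≠ ∞}) fun w hw => hw
  set τ' : C({w | c w ≠ ∞}, (Fin K → ℝ) × (P × Q)) :=
    (ContinuousMap.fst.comp τ).prodMk ((ContinuousMap.snd.comp τ).prodMk
      (r.comp (sinc {w | c w ≠ ∞}))) with hτ'def
  have hτ' : ∀ w : {w | c w ≠ ∞}, φ w = ((τ' w : (Fin K → ℝ) × (P × Q)) : TT K (P × Q)) :=
    fun w => hφ w (τ w).1 (τ w).2 (hτ w)
  obtain ⟨η, h5, h6, h7⟩ := exists_small2 (A := {w | c w ≠ ∞}) (B := {w | c w ∈ misT K P})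
    (OnePoint.isClosed_infty.isOpen_compl.preimage c.continuous)
    ((isOpen_misT K P).preimage c.continuous)
    (fun w => by
      by_cases hw : c w = ∞
      · right
        show c w ∈ misT K P
        rw [hw]
        exact fun p => OnePoint.infty_ne_coe _
      · exact Or.inl hw)
    (u := Cc.pull (singMap φ) b' +
      Cc.cup 1 (Cc.pull (singMap r) y) (Cc.pull (singMap c) b))
    (by rw [TJ.d_add, d_cup_one, ← pull_d, ← pull_d, ← pull_d, hb.d_b, hb'.d_b, hy, pull_zero,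
      pull_zero, pull_zero, cup_zero_left, cup_zero_right, add_zero, add_zero])
    (by
      rw [vn_inU_iff, pull_add, hb'.pull_fin hτ', pull_cup, pull_cup, hb.pull_fin hτ,
        ← TJ.cup_assoc]
      exact cc_add_self _)
    (by
      refine Vn.add (fun p σ hσ => ?_) (Vn.cup_right 1 _ fun p σ hσ => hb.vn p _ hσ)
      refine hb'.vn p _ fun t z hz => ?_
      have h8 : φ (toC σ t) = (((0 : Fin K → ℝ), z) : (Fin K → ℝ) × (P × Q)) := hz
      by_cases hw : c (toC σ t) = ∞
      · rw [hφ0 _ hw] at h8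
        exact OnePoint.infty_ne_coe _ h8
      · obtain ⟨⟨v, p'⟩, hv⟩ := OnePoint.ne_infty_iff_exists.1 hw
        rw [hφ _ v p' hv.symm] at h8
        have h9 := OnePoint.coe_injective h8
        have h10 : v = 0 := congrArg Prod.fst h9
        have h11 : c (toC σ t) ∈ misT K P := hσ t
        rw [← hv, h10] at h11
        exact h11 p' rfl)
  refine ⟨η, h6, h7, ?_⟩
  rw [h5, add_left_comm, cc_add_self, add_zero]

end classes

/-! ### the integral -/

section int

variable {X : SS} {n : ℕ}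

/-- **The projection formula.** -/
theorem DstN_cup_fst {u : Cc X} (hu : Cc.d u = 0) {w : Cc (X.prod (SN n))} (hw : Vn (bdX X n) w)
    (hd : Cc.d w = 0) : (Cc.cupC X).Coh
    (DstN n (Cc.cup 1 (Cc.pull (SS.fst X (SN n)) u) w)) (Cc.cup 1 u (DstN n w)) := by
  obtain ⟨e, h1, h2⟩ := DstN_retract n hw hd
  have h3 : Cc.cup 1 (Cc.pull (SS.fst X (SN n)) u) w = TJ.sn n (Cc.cup 1 u (DstN n w)) +
      Cc.d (Cc.cup 1 (Cc.pull (SS.fst X (SN n)) u) e) := by
    conv_lhs => rw [h2]
    rw [cup_add_right, d_cup_one, ← pull_d, hu, pull_zero, cup_zero_left, zero_add]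
    congr 1
    unfold TJ.sn
    rw [← TJ.cup_assoc, pull_cup]
  have h4 : ∀ a b : Cc X, a + Cc.d b + a = Cc.d b := fun a b => by
    rw [add_comm a, add_assoc, cc_add_self, add_zero]
  refine ⟨DstN n (Cc.cup 1 (Cc.pull (SS.fst X (SN n)) u) e), ?_⟩
  rw [h3, DstN_add, DstN_sn, DstN_d (Vn.cup_right 1 _ h1)]
  exact h4 _ _

end int

section graph

variable {P P' : Type} [TopologicalSpace P] [CompactSpace P] [T2Space P] [TopologicalSpace P']
  [CompactSpace P'] [T2Space P'] {K m : ℕ}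

/-- **The integral of the class of a graph.** -/
theorem DstN_graph (hm : 0 < m) {u : Cc (sing P')} (hu : Cc.d u = 0) {b : Cc (sing (TT m P'))}
    (hb : IsB m u b) {h : C(TT K P, Sph m)} (hh : h ∞ = ∞) {g : C(P, P')}
    {Θ : C(TT K P, TT m P')}
    (hΘ : ∀ z x, Θ (smP K P (z, x)) = smP m P' (h (smP K P (z, x)), g x)) :
    (Cc.cupC (sing P)).Coh (DstN K (Cc.pull ((singMap Θ).comp (muT K P)) b))
      (Cc.cup 1 (Cc.pull (singMap g) u)
        (DstN K (Cc.pull ((singMap h).comp (muT K P)) (uhat m)))) := by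
  obtain ⟨h1, h2, h3, h4⟩ := uhat_spec hm
  obtain ⟨η, h5, h6, h7⟩ := graph_b hm hu hb (W := Sph K × P) (h := h.comp (smP K P))
    (r := g.comp ContinuousMap.snd) (φ := Θ.comp (smP K P)) fun w => hΘ w.1 w.2
  set mu' : SS.Map ((sing P).prod (SN K)) (sing (Sph K × P)) :=
    ⟨fun z => ofC ((cxC z.2).prodMk (toC z.1)), fun f z => by
      apply ContinuousMap.ext
      intro t
      exact Prod.ext (DFunLike.congr_fun (cxC_comp f z.2) t) rfl⟩ with hmu
  have e0 : Cc.pull ((singMap Θ).comp (muT K P)) b =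
      Cc.pull mu' (Cc.pull (singMap (Θ.comp (smP K P))) b) := rfl
  have e1 : Cc.pull mu' (Cc.pull (singMap (g.comp ContinuousMap.snd)) u) =
      Cc.pull (SS.fst (sing P) (SN K)) (Cc.pull (singMap g) u) := rfl
  have e2 : Cc.pull mu' (Cc.pull (singMap (h.comp (smP K P))) (uhat m)) =
      Cc.pull ((singMap h).comp (muT K P)) (uhat m) := rfl
  have hη : Vn (bdX (sing P) K) (Cc.pull mu' η) := by
    intro p z hz
    refine h6 p _ fun t => ?_
    show h (smP K P (cxC z.2 t, toC z.1 t)) ≠ _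
    have e3 : smP K P (cxC z.2 t, toC z.1 t) = ∞ := muT_infty K P hz t
    rw [e3, hh]
    exact OnePoint.infty_ne_coe _
  have hw : Vn (bdX (sing P) K) (Cc.pull ((singMap h).comp (muT K P)) (uhat m)) := by
    intro p z hz
    refine h3 p _ fun t => ?_
    show h (smP K P (cxC z.2 t, toC z.1 t)) ≠ _
    have e3 : smP K P (cxC z.2 t, toC z.1 t) = ∞ := muT_infty K P hz t
    rw [e3, hh]
    exact OnePoint.infty_ne_coe _
  have hdw : Cc.d (Cc.pull ((singMap h).comp (muT K P)) (uhat m)) = 0 := by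
    rw [← pull_d, h2, pull_zero]
  have h8 : Cc.pull ((singMap Θ).comp (muT K P)) b =
      Cc.cup 1 (Cc.pull (SS.fst (sing P) (SN K)) (Cc.pull (singMap g) u))
        (Cc.pull ((singMap h).comp (muT K P)) (uhat m)) + Cc.d (Cc.pull mu' η) := by
    rw [e0, h7, pull_add, pull_cup, e1, e2, pull_d]
  rw [h8, DstN_add, DstN_d hη]
  have h9 := DstN_cup_fst (u := Cc.pull (singMap g) u) (by rw [← pull_d, hu, pull_zero]) hw hdw
  have h10 : ∀ a b c e : Cc (sing P), a + b = Cc.d c → a + Cc.d e + b = Cc.d (c + e) :=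
    fun a b c e h => by rw [TJ.d_add, ← h, add_right_comm]
  obtain ⟨a, ha⟩ := h9
  exact ⟨(show Cc (sing P) from a) + DstN K (Cc.pull mu' η), h10 _ _ _ _ ha⟩

end graph

end Vale.Agent.P263.FR
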